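import Vale.Agent.P270R.Cbe66
import Vale.Agent.P270G.Hcg
import Vale.Agent.P270G.Rgn
import Vale.Agent.P285M.Lt.Ltc
import Vale.Agent.P285S.Tp.Blu
import Vale.Agent.P285S.Tp.Up
import Vale.Agent.P285S.Tp.Top
import Vale.Agent.P285S.Mm.Mkpr
import Vale.Agent.P285N.Xc.Cls
import Vale.Agent.P285S.Tp.Nfp
import Vale.Agent.P285M.Gb.Smi59
import Vale.Agent.P285M.Gb.Exb31
import Vale.Agent.P285N.Tp.Mon
import Vale.Agent.P280Z.Hr.Top
import Vale.Agent.P281Z.Sc.Ord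

/-!
# P270R: the contraction of the negative components for polarised pairs
-/

open scoped Topology
open Set Filter Function
open Vale.Agent.P272.K Vale.Agent.P285.H281.FD Vale.Agent.P281Z Vale.Agent.P280Z
open Vale.Agent.P277Z.Slc (IsDiv lin isLB_can)
open Vale.Agent.P277.HD (pull)
open Vale.Agent.P285N (Pr)
open Vale.Agent.P285N.Tp (mon sec_mon mon_ne LR Eff NumEff Rd)
open Vale.Agent.P285N.St (SubPair)
open Vale.Agent.P285N.Xc (piso topa Rig)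
open Vale.Agent.P285W.Bs (Cp)
open Vale.Agent.P280Z.Co (ct)
open Vale.Agent.P270H (G0 Bp Gf Sm)
open Vale.Agent.P285M Vale.Agent.P285M.Gb

noncomputable section

namespace Vale.Agent.P270R.G66

variable {n : ℕ} {κ ι : Type} [Fintype κ]

/-- a polarised pair whose negative components are contracted -/
structure Cq (A : Pr n κ ι) (m : κ → ℤ) (N : ℕ) (L M P₀ P₁ : Bd A.Z.X) (e : ℕ) : Prop extends
    G0 A m N L M where
  lb₀ : IsLB n P₀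
  lb₁ : IsLB n P₁
  fr₀ : Bpf n P₀
  fr₁ : Bpf n P₁
  big : P285U.Big A.Z P₁
  ep : 0 < e
  cl' : cls n P₀ = cls n P₁ + e • cls n L
  rig : ∀ (x y : ℕ) (M : Bd A.Z.X) (c : κ → ℝ) (s : M.ι → A.Z.X → ℂ), IsLB n M →
    cls n M = x • cls n P₀ + y • cls n P₁ → (∀ l, 0 < c l → m l < 0) →
    SecP n n id univ M A.G c s → SecP n n id univ M A.G (fun _ => 0) s

variable {A : Pr n κ ι} {m : κ → ℤ} {N : ℕ} {L M' P₀ P₁ : Bd A.Z.X} {e : ℕ}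

theorem rig (h : Cq A m N L M' P₀ P₁ e) : Rig A m P₁ L := by
  intro k i M s lM cM ⟨j, hs⟩
  refine ⟨hs.hol, hs.chg, fun a x _ ha => ?_⟩
  obtain ⟨u, u1, u2⟩ := h.fr₁ x
  obtain ⟨b, hb⟩ := h.lb₁.cover x
  have l1 := lb_mul (lb_pow lM e) (lb_pow h.lb₁ i)
  have t1 := (hs.pow continuous_id e).mul continuous_id
    ((secP_of_sec (G := A.G) (c := fun _ => 0) continuous_id u1 fun _ => le_rfl).pow
      continuous_id i)
  have t2 := h.rig i (k * e) _ _ _ l1 (by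
    rw [cls_mul (lb_pow lM e) (lb_pow h.lb₁ i), cls_pow lM, cls_pow h.lb₁, cM, h.cl']
    module) (fun l hl => by
      by_contra c
      simp [c] at hl) t1
  have t3 := (t2.bdP (a := (a, b)) trivial ⟨ha, hb⟩).cmul
    (((sec_hol u1 hb).cont.pow i).inv₀ (pow_ne_zero i (u2 b hb)))
  refine BdP.of_pow h.ep (c := fun _ => 0) ?_
  simp only [mul_zero]
  refine t3.congr (((sec_hol u1 hb).cont.eventually_ne (u2 b hb)).mono fun y hy _ => ?_)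
  show _ = (u b y ^ i)⁻¹ * (s a y ^ e * u b y ^ i)
  field_simp

open P270H.Amb89 (ef_add ef_smul bpf_pow) in
theorem smi (bp : P285U.BPFG) (hC : Cq A m N L M' P₀ P₁ e) (x y : ℕ) (M : Bd A.Z.X) (hx : 0 < x)
    (lM : IsLB n M) (eM : cls n M = x • cls n P₁ + y • cls n L) : Semiample n M := by
  have hR := rig hC
  have lP := hC.lb
  have l1 := hC.lb₁
  have n1 := Lt.nf_bpf l1 hC.fr₁
  rcases y with _ | y
  · refine ⟨1, le_rfl, Bpf.iso (lb_pow lM 1) (lb_pow l1 x) ((cls_eq (lb_pow lM 1)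
      (lb_pow l1 x)).1 ?_) (bpf_pow hC.fr₁ x)⟩
    rw [cls_pow lM, cls_pow l1, eM, zero_smul, add_zero, one_smul]
  obtain ⟨a, H, ha, lH, pH, D, t, d1, d2, d3, z, d4⟩ := hC.big
  have := hC.ok.conn
  have l2 := lb_mul (lb_pow l1 x) (lb_pow lP y)
  have e2 : cls n ((P₁.pow x).mul (L.pow y)) = x • cls n P₁ + y • cls n L := by
    rw [cls_mul (lb_pow l1 x) (lb_pow lP y), cls_pow l1, cls_pow lP]
  have l3 := lb_mul l2 hC.lbM
  have e3 := cls_mul l2 hC.lbM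
  refine bp n κ ι A m N M _ ⟨hC.ok, hC.klt, lM, Smi59.nf_cl l1 lP n1 hC.nef _ _ lM eM, l3,
    Smi59.nf_cl l2 hC.lbM (Smi59.nf_cl l1 lP n1 hC.nef _ _ l2 e2) hC.nfM 1 1 l3
      (by rw [e3, one_smul, one_smul]), by rw [eM, e3, e2, succ_nsmul, hC.cl]; abel⟩
    ⟨H, (topa n κ ι m N A H M _ D t hC.ok lH lM (lb_pow l1 a) d1 (by rw [d2, cls_pow l1]) d3
      ⟨z, d4⟩ fun k i M' s m1 m2 => hR (k * a + i * x) (i * (y + 1)) M' s m1 ?_).imp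
      fun C h => ⟨lH, pH, h⟩⟩
    ⟨a, _, ha, lb_mul (lb_pow lP (a * (y + 1))) lH, hC.nef H lH pH _, ?_⟩
  · rw [m2, cls_pow l1, eM]
    module
  · obtain ⟨x, rfl⟩ := Nat.exists_eq_add_one_of_ne_zero hx.ne'
    obtain ⟨s, s1, s2⟩ := hC.fr₁ z
    have k := ef_add (⟨D, t, d1, d2, d3, z, d4⟩ : P285S.Ef A.Z _)
      (ef_smul (⟨P₁, s, l1, rfl, s1, z, s2⟩ : P285S.Ef A.Z _) (a * x))
    refine Eq.mp (congrArg (P285S.Ef A.Z) ?_) k
    rw [cls_mul (lb_pow lP _) lH, cls_pow lP, eM]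
    module

open P285W P285W.J in
theorem exb (h : Cq A m N L M' P₀ P₁ e) (hn : 2 ≤ n) (O : κ → Bd A.Z.X)
    (σ : ∀ l, (O l).ι → A.Z.X → ℂ) (Λ L₁ : Bd A.Z.X) (x y : ℕ)
    (hO : ∀ l, IsDiv n (A.G l) (O l) (σ l)) (hx : 0 < x) (lΛ : IsLB n Λ) (bΛ : Bpf n Λ)
    (lL : IsLB n L₁) (cL : cls n L₁ = y • cls n L) (cΛ : cls n Λ = x • cls n P₁ + cls n L₁) :
    Exc n Λ L₁ (lin O fun l => ((-m l).toNat : ℤ)) (mon σ fun l => (-m l).toNat) := by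
  have hR := rig h
  obtain ⟨d, rfl⟩ : ∃ d, n = d + 2 := ⟨n - 2, by omega⟩
  have hT := Co.ct_ok
  have := h.ok.conn
  have cZ : Cp A.Z := ⟨h.ok.conn, h.ok.prj⟩
  obtain ⟨a, H, a0, lH, pH, hE⟩ := h.big
  have l1 := lb_pow h.lb₁ a
  have nP := J.nf_of hT h.ok.prj h.lb h.nef
  have n1 := bf_nf hT ⟨P₁, h.lb₁, h.fr₁, rfl⟩
  have nΛ := bf_nf hT ⟨Λ, lΛ, bΛ, rfl⟩
  have kH := hT.c1.pos _ _ lH pH
  have x1 : (1 : ℝ) ≤ x := Nat.one_le_cast.2 hx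
  have a1 : (1 : ℝ) ≤ a := Nat.one_le_cast.2 a0
  have y0 : (0 : ℝ) ≤ y := y.cast_nonneg
  have eL : ct.c1 A.Z L₁ = (y : ℝ) • ct.c1 A.Z L := by
    rw [← hT.c1.pow _ _ _ h.lb]
    exact Ld.Ext.c1_cls Ld.iso hT.c1 lL (lb_pow h.lb y) (by rw [cls_pow h.lb, cL])
  have eΛ : ct.c1 A.Z Λ = (x : ℝ) • ct.c1 A.Z P₁ + ct.c1 A.Z L₁ := by
    rw [← hT.c1.pow _ _ _ h.lb₁, ← hT.c1.mul _ _ _ (lb_pow h.lb₁ x) lL]
    exact Ld.Ext.c1_cls Ld.iso hT.c1 lΛ (lb_mul (lb_pow h.lb₁ x) lL)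
      (by rw [cls_mul (lb_pow h.lb₁ x) lL, cls_pow h.lb₁, cΛ])
  have h0 : 0 < ct.int A.Z (ct.c1 A.Z Λ ^ (d + 2)) := by
    obtain ⟨D, t, lD, eD, ht, z, hz⟩ := hE
    obtain ⟨i, hi⟩ := lD.cover z
    have e1 : J.Ef ct A.Z ((a : ℝ) • ct.c1 A.Z P₁ - ct.c1 A.Z H) :=
      ⟨D, t, lD, ht, KodA.dense_nz lD ht hi (hz i hi), by
        rw [eq_sub_iff_add_eq, ← hT.c1.mul _ _ _ lD lH, ← hT.c1.pow _ _ _ h.lb₁]
        exact Ld.Ext.c1_cls Ld.iso hT.c1 (lb_mul lD lH) l1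
          (by rw [cls_mul lD lH, eD, sub_add_cancel, cls_pow h.lb₁])⟩
    have e2 : J.Nf ct A.Z ((1 : ℝ) • ct.c1 A.Z Λ - ct.c1 A.Z P₁) := by
      rw [show (1 : ℝ) • ct.c1 A.Z Λ - ct.c1 A.Z P₁ =
        (x - 1 : ℝ) • ct.c1 A.Z P₁ + (y : ℝ) • ct.c1 A.Z L by rw [eΛ, eL]; module]
      exact nf_add hT (nf_smul hT (by linarith) n1) (nf_smul hT y0 nP)
    refine (mn_int hT (nΛ.mn.pow _)).lt_of_ne' fun q => (kc_pos hT kH).ne' ?_
    simpa using domp hT (le_of_ef hT a.cast_nonneg e1) (kc_nf hT kH) n1 (d + 2) mn_one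
      (domp hT (le_of_nf hT zero_le_one e2) n1 nΛ _ mn_one (by rw [mul_one, q]))
  have hc : J.Nf ct A.Z ((1 : ℝ) • ct.c1 A.Z Λ - ct.c1 A.Z L₁) := by
    rw [one_smul, eΛ, add_sub_cancel_right]
    exact nf_smul hT x.cast_nonneg n1
  have lO := fun l => (hO l).lb
  have h3 : ct.int A.Z (ct.c1 A.Z (lin O fun l => ((-m l).toNat : ℤ)) *
      ct.c1 A.Z Λ ^ (d + 1)) = 0 := by
    rw [hT.c1.lin _ _ _ lO, Finset.sum_mul, map_sum]
    refine Finset.sum_eq_zero fun l _ => ?_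
    rw [smul_mul_assoc, map_smul]
    by_cases hl : m l < 0
    swap
    · rw [show (-m l).toNat = 0 by omega]
      simp
    have k := P270G.RgnH.rign hT h.ok h.lb nP hO l1 (by
      rw [hT.c1.pow _ _ _ h.lb₁]
      exact nf_smul hT a.cast_nonneg n1) lH pH (by rwa [cls_pow h.lb₁])
      (fun k i M s m1 m2 m3 => hR (k * a) i M s m1 (by rw [m2, cls_pow h.lb₁, mul_smul]) m3) hl
    rw [hT.c1.pow _ _ _ h.lb₁] at k
    have nv := nf_add hT (nf_smul hT (r := (x + y) * a - x) (by nlinarith) n1)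
      (nf_smul hT (r := x) x.cast_nonneg nP)
    have k2 := Exb31.drop (fun y => ef_int hT (P285S.En.ef_div (T := ct) hO l) (b := y)) nΛ.mn
      nv.mn (nf_add hT nΛ nv).mn (d + 1) mn_one (by
        rw [show ct.c1 A.Z Λ + (((x + y) * a - x : ℝ) • ct.c1 A.Z P₁ + (x : ℝ) • ct.c1 A.Z L) =
          (x + y : ℝ) • ((a : ℝ) • ct.c1 A.Z P₁ + ct.c1 A.Z L) by rw [eΛ, eL]; module,
          mul_one, smul_pow, mul_smul_comm, map_smul, k, smul_zero])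
    rw [mul_one] at k2
    rw [k2, smul_zero]
  obtain ⟨lE, hs, nE⟩ := P285N.Tp.En.div_mon hO fun l => (-m l).toNat
  exact ⟨P285L.X49.exc1 hT cZ lΛ bΛ lL lE hs nE h0 hc h3,
    P285L.X49.exc hT P285N.Tp.flc cZ lΛ bΛ lL lE hs nE h0 hc h3⟩

theorem rdq (bp : P285U.BPFG) (h3 : IMF) (h4 : SGI) (h5 : SGT) (h6 : NFR) (h8 : SUBP)
    (C : Cq A m N L M' P₀ P₁ e) (hn : 2 ≤ n) : ∃ (Q : Rd A.Z) (D : Bd A.Z.X)
    (t : D.ι → A.Z.X → ℂ) (q y : ℕ), Q.Ok ∧ SubPair n Q.E Q.s D t q (A.P.pow y) ∧ 0 < y ∧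
    Q.L = L.pow y := by
  have cp : P285W.Bs.Cp A.Z := ⟨C.ok.conn, C.ok.prj⟩
  obtain ⟨O, σ, hO⟩ := (Hyp.of_snc C.ok.snc).exists_div
  obtain ⟨j, r₁, s₁, hj, f₁, i₁⟩ := (h3 n A.Z P₁ cp C.lb₁ C.fr₁).2 C.big
  have l₀ := lb_pow C.lb₀ j
  have l₁ := lb_pow C.lb₁ j
  have lL := lb_pow C.lb (j * e)
  have lA := lb_mul l₀ l₁
  obtain ⟨r₀, s₀, f₀⟩ := (h3 n A.Z _ cp l₀ (Hr.Tp.bpf_pow C.fr₀ j)).1
  have c0 : cls n (P₀.pow j) = cls n (P₁.pow j) + cls n (L.pow (j * e)) := by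
    rw [cls_pow C.lb₀, cls_pow C.lb₁, cls_pow C.lb, C.cl', smul_add, mul_smul]
  have c1 : cls n ((P₀.pow j).mul (P₁.pow j)) =
      (j + j) • cls n P₁ + cls n (L.pow (j * e)) := by
    rw [cls_mul l₀ l₁, c0, cls_pow C.lb₁, add_smul, add_right_comm]
  obtain ⟨fr, im⟩ := h4 n A.Z _ _ _ _ s₀ s₁ l₀ l₁ f₀ f₁
  have ex := exb C hn O σ _ _ (j + j) (j * e) hO (by omega) lA (fun x => by
    obtain ⟨k, hk⟩ := lA.cover x
    obtain ⟨a, ha⟩ := fr.2 k x hk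
    exact ⟨_, fr.1 a, (nz_iff lA (fun b b' => (fr.1 a).change b b' x) hk).2 ha⟩) lL
    (cls_pow C.lb _) c1
  obtain ⟨D, t, q, sp⟩ := h8 n κ ι A m N O σ (j * e) C.ok C.klt hO (mul_pos hj C.ep)
  have lE := lb_lin (fun l => (hO l).lb) fun l => ((-m l).toNat : ℤ)
  refine ⟨⟨_, _, sg s₀ s₁, L.pow (j * e), _, mon σ fun l => (-m l).toNat⟩, D, t, q, j * e,
    ⟨cp.conn, cp.prj, ⟨lA, lL, lE, fr.1, fr.2, h6 n A.Z _ _ _ _ cp lA lL fr fun i =>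
      smi bp C (j + j) (i * (j * e) + j * e) _ (by omega)
        (lb_mul (lb_pow lL i) lA) ?_, h5 n A.Z _ _ _ _ s₀ s₁ l₀ l₁ f₀ f₁ _ lL c0,
      sec_mon (fun l => (hO l).sec) _, ?_, ex.1⟩, im i₁, ex.2⟩, sp, mul_pos hj C.ep, rfl⟩
  · rw [cls_mul (lb_pow lL i) lA, c1, cls_pow lL, cls_pow C.lb, add_smul (i * (j * e)),
      mul_smul i, add_left_comm]
  · have := cp.conn
    obtain ⟨x, hx⟩ := (snc_dense_off C.ok.snc).nonempty
    obtain ⟨c, hc⟩ := lE.cover x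
    exact ⟨c, x, hc, mon_ne hO _ hc fun l _ => hx l⟩

open P285S.Tp P285M.Lt in
theorem ctq (mo : Lt.MONO) (lt : LTC) (h1 : FG2) (h2 : NZF) (h3 : MV2) (h4 : ZD) (h5 : BG1)
    (h6 : EQF) (h7 : RG0) (h8 : EXN) (h9 : VAN) (g : G0 A m N L M') (bp : Bp A m L) :
    ∃ (p : ℕ) (A' : Pr n (Fin p) ι) (m' : Fin p → ℤ) (π : A'.Z.X → A.Z.X) (S : Set A.Z.X)
      (P₀ P₁ : Bd A'.Z.X) (e : ℕ), Modif n π S ∧ Cq A' m' N (pull π L) (pull π M') P₀ P₁ e ∧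
      A'.P = (pull π A.P).pow 1 := by
  have ok := g.ok
  have := ok.conn
  have nP := g.nef
  obtain ⟨W, C, lW, pW, hC⟩ := bp
  obtain ⟨O, σ, hO⟩ := (Hyp.of_snc ok.snc).exists_div
  have lO := fun k => lb_lin (fun l => (hO l).lb) k
  have cP := P285N.Xc.cls_eq n κ ι m N A O σ ok hO
  obtain ⟨c, hc⟩ : ∃ c, c = 2 * C + 1 := ⟨_, rfl⟩
  have c0 : 0 < c * N := mul_pos (by omega) ok.pos
  have l1 := lb_mul (lb_pow isLB_can N) (lO fun l => (m l).toNat)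
  obtain ⟨P', lP', c1⟩ : ∃ P', IsLB n P' ∧ cls n P' =
      N • cls n (Bd.can n A.Z.X) + ∑ l, (m l).toNat • cls n (O l) :=
    ⟨_, l1, by rw [cls_mul (lb_pow isLB_can N) (lO _), cls_pow isLB_can, cls_nat hO]⟩
  have c2 : cls n P' = cls n A.P + ∑ l, (-m l).toNat • cls n (O l) := by
    rw [c1, cP, add_assoc, ← Finset.sum_add_distrib]
    refine congrArg _ (Finset.sum_congr rfl fun l _ => ?_)
    rw [← natCast_zsmul, ← natCast_zsmul _ (-m l).toNat, ← add_smul]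
    congr 1
    omega
  have lH := lb_mul (lb_pow g.lbM c) lW
  have pH := g.nfM W lW pW c
  have cH := (cls_mul (lb_pow g.lbM c) lW).trans (congrArg (· + _) (cls_pow g.lbM c))
  generalize (M'.pow c).mul W = H at lH pH cH
  have l2 := lb_mul (lb_pow lP' c) lH
  have l3 := lb_pow g.lb (n * (c * N) + 1)
  have c3 := (cls_mul l2 l3).trans (by rw [cls_mul (lb_pow lP' c) lH, cls_pow lP', cls_pow g.lb])
  obtain ⟨T, a, e, hT, he, ea, e0, e1⟩ := h1 n (c * N) (n * (c * N) + 1) A.Z κ A.G O σ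
    (fun l => c * (m l).toNat) H L _ ⟨ok.conn, ok.prj⟩ ok.snc hO c0
    (fun l => Nat.mul_le_mul_left c (by have := ok.le l; omega)) lH pH g.lb nP (by omega)
    (lb_mul l2 l3) (by simp only [c3, c1, smul_add, Finset.smul_sum, mul_smul])
  rw [c3] at e0
  have a0 : 0 < a := he.trans_le ea
  obtain ⟨a', rfl⟩ := Nat.exists_eq_add_of_le ea
  have g0 : cls n T.E₀ = (e + a') • cls n W + ((e + a') * (c + (n * (c * N) + 1))) • cls n L +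
      ∑ l, ((e + a') * c * (-m l).toNat) • cls n (O l) := by
    simp only [mul_smul _ (-m _).toNat, ← Finset.smul_sum]
    rw [e0, c2, cH, g.cl]
    module
  have big : ∀ (E : Bd A.Z.X) (i : ℕ), cls n E = (e + a') • cls n W + i • cls n L +
      ∑ l, ((e + a') * c * (-m l).toNat) • cls n (O l) → P285U.Big A.Z E := fun E i k => by
    obtain ⟨H', k1, k2, k3⟩ := PC.nf ⟨_, lb_pow lW _, Pos.pow pW a0, cls_pow lW _⟩ g.lb nP i
    obtain ⟨x, hx⟩ := (snc_dense_off ok.snc).nonempty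
    obtain ⟨M, s, m1, m2, m3, m4⟩ := sc_mon hO (k := fun l => (e + a') * c * (-m l).toNat)
      fun l _ => hx l
    exact ⟨1, H', one_pos, k1, k2, M, s, m1, by rw [m2, k3, k, one_smul, add_sub_cancel_left],
      m3, x, m4⟩
  have b1 := big T.E₁ ((e + a') * (c + n * (c * N)) + a') (by
    refine add_right_cancel (b := e • cls n L) (e1.symm.trans (g0.trans ?_))
    module)
  obtain ⟨z0, z1⟩ := h2 n A.Z T hT (big _ _ g0) b1
  obtain ⟨R, hR⟩ := h3 n A.Z T H _ hT lH pH (snc_thin_off ok.snc) z0 z1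
  have hπ := hR.md.hol
  have ho : ∀ y ∈ off R.G, R.π y ∉ R.S ∧ R.π y ∈ off A.G := fun y hy =>
    ⟨(hR.off y hy).1, not_not.1 (hR.off y hy).2⟩
  have zd := h4 n A.Z T H _ R hT lH pH hR
  have bg := h5 n A.Z T H _ R hT lH pH hR zd b1
  obtain ⟨Ω₀, ok₀⟩ := P285S.Mm.mkpr n κ A.Z A.G O σ P' (fun l => (m l).toNat) N ok.conn ok.prj
    ok.snc hO lP' ok.pos ok.even (fun l => by have := ok.le l; omega)
    (by simpa only [natCast_zsmul] using c1)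
  obtain ⟨μ, Ω₁, k1, k2, k3⟩ := blow ok₀ hR.md hR.cp.prj hR.snc hR.conn ho
  obtain ⟨m', Ω, j1, j2, j3⟩ := blow ok hR.md hR.cp.prj hR.snc hR.conn ho
  have lL := hπ.lb g.lb
  have d1 : cls n (pull R.π P') = N • cls n (Bd.can n R.W.X) + ∑ l, μ l • cls n (R.O l) := by
    rw [← P285N.Xc.cls_eq n _ _ μ N _ R.O R.σ k1 hR.div]
    exact ((cls_pow (hπ.lb lP') 1).trans (one_smul _ _)).symm
  have d2 : cls n (pull R.π T.E₀) = cls n (pull R.π T.E₁) + e • cls n (pull R.π L) := by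
    rw [cls_pull hπ hT.lb₀, cls_pull hπ hT.lb₁, cls_pull hπ g.lb, e1, map_add, map_nsmul]
  have eq := h6 mo lt n A.Z T H _ R hT lH pH hR (pull R.π L) (e + a') (c * N) e (n * (c * N) + 1)
    (fun l => c * μ l) zd bg lL (nf_comp hπ ok.prj g.lb nP) a0 c0 (fun l => by
      have : μ l < N := (k1.le l).lt_of_ne fun k => by
        obtain ⟨y, hy⟩ := (hR.conn l).nonempty
        obtain ⟨j, q1, q2⟩ := k2 l k y hy
        have := ok.pos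
        have := g.klt j
        beta_reduce at q1
        omega
      push_cast
      exact mul_lt_mul_of_pos_left this (by omega))
    (fun l k y hy => (k3 l (by
      by_contra q
      exact absurd k (not_lt.2 (mul_nonneg c.cast_nonneg (not_lt.1 q)))) y hy).resolve_right
        fun ⟨j, q, _⟩ => by omega) (Nat.le_succ _) (by
      rw [cls_pull hπ hT.lb₀, e0, map_nsmul, map_add, map_add, map_nsmul, map_nsmul,
        ← cls_pull hπ lP', ← cls_pull hπ lH, ← cls_pull hπ g.lb, d1]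
      simp only [mul_smul, natCast_zsmul, ← Finset.smul_sum, smul_add c]) d2
  have d3 : cls n ((pull R.π A.P).pow 1) = cls n (pull R.π A.P) := by
    rw [cls_pow (hπ.lb ok.lb), one_smul]
  refine ⟨R.p, (LR.mk R.W R.π R.G m' N 1 Ω : LR A.Z A.P _).A, m', R.π, R.S, R.P₀, R.P₁, e, hR.md,
    ⟨⟨j1, fun l => (j1.le l).lt_of_ne fun k => ?_, lL, nf_comp hπ ok.prj g.lb nP, hπ.lb g.lbM,
      nf_comp hπ ok.prj g.lbM g.nfM, ?_⟩, hR.lb₀, hR.lb₁, hR.fr₀, hR.fr₁,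
      bg, he, ?_, h7 n A.Z T H _ R hT lH pH hR m' zd eq fun l k =>
        h8 n A.Z T H _ R hT lH pH hR {z | ∃ j, m j < 0 ∧ z ∈ A.G j} l (fun z ⟨j, q1, q2⟩ b =>
          h9 n κ ι A m N O σ W L T.E₀ C (e + a') _ ((e + a') * c) _ ok hO lW g.lb hT.lb₀ hC
            (by nlinarith) g0 (hT.s₀ b) j q1 z q2) (j3 l k)⟩, rfl⟩
  · obtain ⟨y, hy⟩ := (hR.conn l).nonempty
    obtain ⟨j, q1, -⟩ := j2 l k y hy
    exact (g.klt j).ne q1
  · refine Eq.trans ?_ (congrArg (· + _) d3.symm)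
    rw [cls_pull hπ g.lb, cls_pull hπ ok.lb, cls_pull hπ g.lbM, g.cl, map_add]
  · rw [hR.cl₀, hR.cl₁, eq, add_right_comm] at d2
    exact add_right_cancel d2

theorem eff (g : Gf A m N L M') (h : NumEff n A.P) : Eff n A.P := by
  have ok := g.ok
  have hc : P285N.HC A m := by
    obtain ⟨W, c, lW, pW, fp⟩ := g.bp
    refine P270G.hcg n _ _ m N A W L ok ⟨⟨lW, g.lb, fun i j B lB e => ?_⟩, c, fp⟩
    have l2 := lb_mul (lb_pow g.lb i) lW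
    refine piso n _ _ _ (lb_mul (lb_pow g.lbM j) l2) lB ?_ (g.nfM _ l2 (g.nef W lW pW i) j)
    rw [e, cls_mul (lb_pow g.lbM _) l2, cls_mul (lb_pow g.lb _) lW, cls_pow g.lbM, cls_pow g.lb,
      ← sub_eq_iff_eq_add'.2 g.cl]
    abel
  obtain ⟨a, ha, F, f1, f2, s, s1, s2⟩ := h
  obtain ⟨j, hj, u, u1, b, x, k1, k2, k3⟩ := P285N.Tp.dp n _ _ m N A F a s ok f1 f2 ha s1 s2
  obtain ⟨v, v1, v2⟩ := (hc j u u1).isSec ok.snc (lb_pow ok.lb j) fun _ => one_pos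
  exact ⟨j, hj, v, v1, b, x, k1, v2 b x k1 k2 ▸ k3⟩

end G66

open G66 in
/-- **GAE** -/
theorem gae66 {n : ℕ} (hn : 2 ≤ n) (mo : Lt.MONO) (lt : Lt.LTC) (h1 : FG2) (h2 : NZF) (h3 : MV2)
    (h4 : ZD) (h5 : BG1) (h6 : EQF) (h7 : RG0) (h8 : EXN) (h9 : VAN) (bp : P285U.BPFG) (k3 : IMF)
    (k4 : SGI) (k5 : SGT) (k6 : NFR) (k8 : SUBP) (ga : P270G.GA n) : GAE n := by
  intro T hT κ ι _ A m N hF L M g ne
  obtain ⟨p, A', m', π, S, P₀, P₁, e, hπ, C, eP⟩ :=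
    ctq mo lt h1 h2 h3 h4 h5 h6 h7 h8 h9 g.toG0 g.bp
  obtain ⟨Q, D, t, q, y, hQ, K, y0, eL⟩ := rdq bp k3 k4 k5 k6 k8 C hn
  have e1 : Eff n A'.P := eP ▸ P285S.Tp.eff_pull hπ (eff g ne) 1
  have lQ := lb_pow C.lb y
  have lM := lb_pow C.lbM y
  obtain ⟨τ, hτ⟩ := (cls_eq lQ (lb_mul K.lb lM)).1 (by
    rw [cls_mul K.lb lM, cls_pow C.lb, cls_pow C.ok.lb, cls_pow C.lbM, C.cl, smul_add])
  obtain ⟨k, hk, F, f1, f2, h⟩ := ga A'.Z Q D t q (A'.P.pow y) ((pull π M).pow y) ⟨hQ, K,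
    P285S.Tp.eff_pull modif_id e1 y, lM, P285S.Tp.F4.nf_pw C.lbM C.nfM y, eL ▸ ⟨τ,
      fun a b e x he ha hb => ⟨(hτ.hol a b x ha hb e he).contDiffAt, hτ.ne a b x ha hb⟩, hτ.chg⟩⟩
  rw [eL] at h
  have l1 := lb_mul (lb_pow lQ k) f1
  refine ⟨A'.Z, π, S, hπ, _, k * y, C.ok.prj, l1, ⟨1, le_rfl, P285W.J.ScaleX.bpf_pow h 1⟩,
    Nat.mul_pos hk y0, ?_⟩
  rw [hT.c1.mul _ _ _ (lb_pow lQ k) f1, (hF A'.Z F C.ok.prj.kah f1).2 f2, add_zero,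
    hT.c1.pow _ _ _ lQ, hT.c1.pow _ _ _ C.lb, hT.c1.pull hπ.hol _ g.lb, smul_smul, Nat.cast_mul]

end Vale.Agent.P270R
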