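import Vale.Agent.P270R.Top98
import Vale.Agent.P270R.Gae66
import Vale.Agent.P285M.Lt.All
import Vale.Agent.P285M.Gb.Bg17
import Vale.Agent.P285M.Gb.Eqf43
import Vale.Agent.P285M.Gb.Exn29
import Vale.Agent.P285M.Gb.Fg213
import Vale.Agent.P285M.Gb.Imf62
import Vale.Agent.P285M.Gb.Mv221
import Vale.Agent.P285M.Gb.Nfr3
import Vale.Agent.P285M.Gb.Nzf27
import Vale.Agent.P285M.Gb.Rg026
import Vale.Agent.P285M.Gb.Sgi63
import Vale.Agent.P285M.Gb.Sgt74
import Vale.Agent.P285M.Gb.Subp24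
import Vale.Agent.P285M.Gb.Van19
import Vale.Agent.P285M.Gb.Zd80

/-!
# P270R: all the rows
-/

open Vale.Agent.P285M Vale.Agent.P285M.Gb

namespace Vale.Agent.P270R

theorem gae5 (w : ℕ) (hw : w ≤ 5) : GAE w := by
  rcases hw.lt_or_eq with c | rfl
  · exact fun T hT κ ι _ A m N hF L M k _ => P270H.gag w (by omega) T hT κ ι A m N hF L M k
  · exact gae66 (by omega) Lt.mono Lt.ltc fg213 nzf mv2 zd bg17 eqf rg0 exn29 van P270V.A37.bpfg
      imf62 sgi63 sgt74 nfr subp24 (ga5 5 le_rfl)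

end Vale.Agent.P270R
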