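import Vale.Agent.P270R.Fke66
import Vale.Agent.P270V.Gf071
import Vale.Agent.P270G.Top
import Vale.Agent.P270G.Gdf
import Vale.Agent.P270H.Gag
import Vale.Agent.P285T.Cb.Asm
import Vale.Agent.P285W.Bs.All
import Vale.Agent.P285W.Ct.All

/-!
# P270R: effective pairs of nef dimension at most five, the assembly
-/

open Set Filter Function
open Vale.Agent.P272.K Vale.Agent.P285.H281.FD Vale.Agent.P281Z Vale.Agent.P280Z
open Vale.Agent.P277.HD (pull)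
open Vale.Agent.P285N.Tp (Rd flc Eff NumEff FLC nefp)
open Vale.Agent.P285N.St (SubPair Psef Iso)
open Vale.Agent.P285S Vale.Agent.P285S.Tp Vale.Agent.P285S.Mm.Ps.Nvso
open Vale.Agent.P280Z.Co (ct ct_ok)
open Vale.Agent.P285T.Cb (Ud ONE0 CBF)
open Vale.Agent.P270H

namespace Vale.Agent.P270R

/-- **GAE**: polarised pairs with a section -/
def GAE (d : ℕ) : Prop := P270G.ForP d fun T _ _ _ A m N => FLC T → ∀ L M : Bd A.Z.X,
  Gf A m N L M → NumEff d A.P → Sm T A.Z (T.c1 A.Z L)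

/-- **CBE** -/
def CBE : Prop := ∀ (n d : ℕ) (V : Mf n) (Q : Rd V) (D : Bd V.X) (t : D.ι → V.X → ℂ) (q : ℕ)
  (C M : Bd V.X), Q.Ok → SubPair n Q.E Q.s D t q C → Eff n C → IsLB n M → P285N.Tp.Nf V M →
  Iso n Q.L (C.mul M) → n ≤ d + 5 →
  ¬ Neg n (P285W.Bs.Gd ct V (ct.c1 V Q.L) d) → NumSemiample n Q.L

theorem C66.si {b : ℕ} {S Z : Mf b} [ConnectedSpace Z.X] {p : S.X → Z.X} (hp : HolM b b p)
    {x : S.X} (h : Imm b b p x) : Surjective p := by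
  by_contra c
  obtain ⟨y, y1, y2⟩ := mem_closure_iff_nhds.1 (((rem b b S Z p univ hp an_univ).thin
    fun e => c (range_eq_univ.1 (image_univ ▸ e))).dense (p x)) _
      ((imm_iff_sbm.1 h).map_nhds (hp.at x) ▸ image_mem_map univ_mem : p '' univ ∈ nhds (p x))
  exact y2 y1

/-- a section upstairs gives a numerically effective class on the base -/
theorem ned66 {T : CT} (hT : T.OK) (hF : P285N.Tp.FLC T) {n w : ℕ} {V : Mf n} {Q : Rd V} {M : Fb n w}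
    {U : Ud Q M} {C : Bd V.X} {E : Bd M.Y.X} (hU : Ok T U C E)
    (h : Eff n C) {P : Bd M.Y.X} (hP : IsLB w P) {z : ℕ}
    (hz : T.c1 M.Y P = (z : ℝ) • T.c1 M.Y E) : NumEff w P := by
  obtain ⟨a, ha, s, s1, b, x, s2, s3⟩ := h
  obtain ⟨B, hB⟩ := hU.md
  have cX := hU.fb.conn
  have cY := hU.fb.connY
  have hf := hU.fb.fibn.hol
  have lL := hU.lbC
  have l1 := hB.hol.lb (lb_pow lL a)
  have t1 := hB.hol.sec s1
  obtain ⟨y, rfl⟩ := hB.surj x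
  have hA : An n {x | ¬ NZ (pull U.π (C.pow a)) (fun c z => s c (U.π z)) x} := fun x =>
    (l1.cover x).elim fun a ha => ⟨1, fun _ z => s a (U.π z), fun _ => P281Z.sec_hol t1 ha,
      (lb_near l1 ha).mono fun y hy => (P280Z.Ld.not_nz l1 t1 hy).trans (forall_const _).symm⟩
  obtain ⟨S, i, cS, hi, hN, x, hx⟩ := P285W.Bs.msec T hT n w M.X M.Y M.f _ ⟨cX, hU.ok.prj⟩
    ⟨cY, hU.prj⟩ hf hU.fb.fibn.surj (hA.thin fun e => eq_univ_iff_forall.1 e y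
      ((nz_iff l1 (fun a b => t1.change a b y) s2).2 s3)).neg
  have hp : HolM w w fun x => M.f (i x) := hf.comp hi
  have c0 : (0 : ℝ) < U.c * U.k := by
    have := hU.cp
    have := hU.kp
    positivity
  obtain ⟨m, hm, he⟩ := P285W.Ct.push T hT w M.Y E cY hU.prj hU.lbE ⟨S, _, hp, a / (U.c * U.k),
    cS.conn, cS.prj, C66.si hp hx, by positivity, _, _, hi.lb l1, hi.sec t1,
    hN.dense.mono fun y hy => not_not.1 hy, by
      rw [hT.rg.pull_comp hi hf hp (fun _ => rfl), hU.cE, P270G.GdfH.c1_cls hT hU.ok.lb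
        (lb_pow (hB.hol.lb lL) U.k) (hU.cl.trans (cls_pow (hB.hol.lb lL) _).symm),
        hT.c1.pow _ _ _ (hB.hol.lb lL), hT.c1.pull hi _ l1, smul_smul, map_smul, smul_smul,
        div_mul_cancel₀ _ c0.ne', ← map_smul, ← hT.c1.pow _ _ _ (hB.hol.lb lL)]
      rfl⟩
  obtain ⟨D, t, d1, d2, d3, d4⟩ := he
  exact P285W.J.numEff_of hT hF hU.prj.kah hP hm ⟨_, _, lb_pow d1 z, P285N.Tp.N2.pow_sec d2 z,
    d3.mono fun y (hy : NZ D t y) c hc => pow_ne_zero _ (hy c hc), by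
      rw [hT.c1.pow _ _ _ d1, d4, hz, smul_comm]⟩

theorem C66.up {w : ℕ} {W Y : Mf w} {τ : Y.X → W.X} {S : Set W.X} (hτ : Modif w τ S)
    {P : Bd W.X} (hP : IsLB w P) (h : NumEff w P) {L : Bd Y.X} (hL : IsLB w L) {z : ℕ}
    (e : cls w L = z • cls w (pull τ P)) : NumEff w L := by
  obtain ⟨a, ha, F, f1, f2, s, s1, s2⟩ := h
  have l1 := lb_mul (lb_pow hP a) f1
  have l2 := lb_pow (hτ.hol.lb f1) z
  obtain ⟨b, x, hb, -⟩ := id s2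
  obtain ⟨y, -⟩ := hτ.surj x
  have : Nonempty Y.X := ⟨y⟩
  obtain ⟨t, y, t1, t2⟩ := ef_cls (lb_mul (lb_pow hL a) l2) (by
    have k := ef_smul (ef_pull hτ (P270G.EfqH.ef_of l1 s1 s2)) z
    rwa [cls_mul (lb_pow hP a) f1, cls_pow hP, map_add, map_nsmul, ← cls_pull hτ.hol hP,
      ← cls_pull hτ.hol f1, smul_add, smul_comm, ← e, ← cls_pow hL, ← cls_pow (hτ.hol.lb f1),
      ← cls_mul (lb_pow hL a) l2] at k)
  obtain ⟨c, hc⟩ := (lb_mul (lb_pow hL a) l2).cover y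
  exact ⟨a, ha, _, l2, (nefp w w Y Y (fun x => x) _ contMDiff_id (hτ.hol.lb f1)).2.2 z
    ((nefp w w W Y τ F hτ.hol f1).2.1 f2), t, t1, c, y, hc, t2 c hc⟩

theorem cbe66 (ga : ∀ n ≤ 5, P270G.GA n) (gae : ∀ w ≤ 5, GAE w) (st0 : ST0) (crp : CRP)
    (fk0 : FK0) (fk1 : FK1) (one0 : ONE0) (cbf : CBF) (wpr : WPR) (fpd : FPD) (psb : PSB)
    (amb : AMB) (gdw : GDW) (gup : GUP) (en : P270H.END) : CBE := by
  intro n d V Q D t q C L hQ K eC lL nL iso hn hd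
  have := hQ.conn
  have hC := P270G.psef_eff K.lb eC
  obtain ⟨d', h1, h2, h3⟩ := P285T.Cb.AsmH.mx
    (p := fun d => ¬ Neg n (P285W.Bs.Gd ct V (ct.c1 V Q.L) d)) (fun _ => P285T.Cb.AsmH.gd_le) hd
  have h4 := P285T.Cb.AsmH.gd_le h2
  rcases d' with _ | e
  · exact ga n (by omega) V Q D t q C L
      ⟨hQ, K, eC, lL, nL, iso⟩
  obtain ⟨w, rfl⟩ : ∃ w, n = w + (e + 1) := ⟨n - (e + 1), by omega⟩
  have hw : w ≤ 5 := by omega
  obtain ⟨M, U, E, hU, h5⟩ := st0 ct ct_ok w e V Q D t q C L hQ K hC lL nL iso h2 (not_not.1 h3)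
  obtain ⟨m, h6⟩ := one0 w (e + 1) M hU.fb (Mf.Prj.kah hU.ok.prj) (Mf.Prj.kah hU.prj)
    (fk0 ct ct_ok flc w e V Q M U C E hU h5) (fk1 ct ct_ok flc w e V Q M U C E hU)
  obtain ⟨M₀, F, A, u, v, ⟨U₀, E₀, k0⟩, k1, k2, k3, k4, k5⟩ := cbf w (e + 1) m
    (fun M => ∃ (U : Ud Q M) (E : Bd M.Y.X), Ok ct U C E) (fun _ ⟨_, _, k⟩ => ⟨k.ok.prj, k.prj⟩)
    (fun M M₁ u v ⟨U, E, k⟩ a b c d f =>
      (crp ct ct_ok flc w e V Q M U C E k M₁ u v a b c d f).imp fun _ k => k.imp fun _ k => k.1)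
    M ⟨U, E, hU⟩ h6
  obtain ⟨U₁, E₁, k6, k7⟩ := crp ct ct_ok flc w e V Q M₀ U₀ C E₀ k0 F.T.toFb u v k1.or.sn.ok k2 k3
    k4 k1.or.sn.connG
  obtain ⟨B, A', z, b1, b2⟩ := wpr ct ct_ok flc w e m V Q F A U₁ C E₁ k6 k1
    fun l => (k5 l).imp_left (k7 l)
  obtain ⟨S₀, hπ⟩ := k6.md
  have ps : Pse F.T.Y (cls w B.P) := psb ct ct_ok _ w F.T.X F.T.Y _ k6.fb.fibn.hol U₁.P B.P
    (z * U₁.c) ⟨k6.ok.conn, k6.ok.prj⟩ b1.cp k6.fb.fibn.surj k6.ok.lb b1.lb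
    (by rw [b2.cl, map_smul, k6.cE, smul_smul, Nat.cast_mul])
    (k6.cl ▸ P270V.pse_up71 hπ hQ.prj k6.lbC hC _)
  have ne := ned66 ct_ok flc k6 eC b1.lb b2.cl
  obtain ⟨κ, ι, _, P, μ, N, τ, z', b3, b4⟩ := gdw w _ B b1 (amb w _ B b1 (fke66 b1 ne))
  obtain ⟨M', b5⟩ := gup ct ct_ok w _ B κ ι P μ N τ z' z U₁.D E₁ b1 ps b3 b4 k6.lbD k6.lbE k6.nfD
    k6.nfE b2.cl (fpd ct ct_ok flc w e V Q _ U₁ C E₁ k6 B A' z b1 b2)
  obtain ⟨S, hτ⟩ := b3.md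
  refine en ct ct_ok flc w e V Q _ U₁ C E₁ k6 (Sm.down ct_ok hτ (Nat.mul_pos b3.zp b2.zp) ?_
    (gae w hw ct ct_ok κ ι P μ N flc _ M' b5 (C66.up hτ b1.lb ne b3.ok.lb b3.cl)))
  rw [ct_ok.c1.pow _ _ _ (hτ.hol.lb k6.lbD), ct_ok.c1.pull hτ.hol _ k6.lbD]

end Vale.Agent.P270R
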