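import Vale.Agent.P285M.Gb.Defs
import Vale.Agent.P270H.Defs

/-!
# P270R: polarised pairs whose negative components are contracted (definitions, rows)
-/

open Set Filter Function
open Vale.Agent.P272.K Vale.Agent.P285.H281.FD Vale.Agent.P281Z Vale.Agent.P280Z
open Vale.Agent.P277Z.Slc (IsDiv Snc lin)
open Vale.Agent.P277.HD (pull)
open Vale.Agent.P285N (Pr)
open Vale.Agent.P285N.Xc (Fp Rig)
open Vale.Agent.P285N.Tp (Rd Eff Nf mon)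
open Vale.Agent.P285N.St (SubPair Iso)
open Vale.Agent.P285U (Big)
open Vale.Agent.P285M.Gb (Exc)
open Vale.Agent.P270H (G0 Gf)

noncomputable section

namespace Vale.Agent.P270R

/-- a polarised klt pair whose negative components are contracted, `P₀ = P₁ + e L` -/
structure Cg {n : ℕ} {κ ι : Type} [Fintype κ] (A : Pr n κ ι) (m : κ → ℤ) (N : ℕ)
    (L M P₀ P₁ : Bd A.Z.X) (e : ℕ) : Prop extends G0 A m N L M where
  conn : ∀ l, IsConnected (A.G l)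
  lb₀ : IsLB n P₀
  lb₁ : IsLB n P₁
  fr₀ : Bpf n P₀
  fr₁ : Bpf n P₁
  big : Big A.Z P₁
  ep : 0 < e
  cl₀ : cls n P₀ = cls n P₁ + e • cls n L
  rig : ∀ (x y : ℕ) (B : Bd A.Z.X) (c : κ → ℝ) (s : B.ι → A.Z.X → ℂ), IsLB n B →
    cls n B = x • cls n P₀ + y • cls n P₁ → (∀ l, 0 < c l → m l < 0) →
    SecP n n id univ B A.G c s → SecP n n id univ B A.G (fun _ => 0) s

/-- **CTG** -/
def CTG : Prop := ∀ (n : ℕ) (κ ι : Type) [Fintype κ] (A : Pr n κ ι) (m : κ → ℤ) (N : ℕ)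
  (L M : Bd A.Z.X), Gf A m N L M → ∃ (p : ℕ) (A' : Pr n (Fin p) ι) (m' : Fin p → ℤ)
    (π : A'.Z.X → A.Z.X) (S : Set A.Z.X) (P₀ P₁ : Bd A'.Z.X) (e : ℕ), Modif n π S ∧
    Cg A' m' N (pull π L) (pull π M) P₀ P₁ e ∧ cls n A'.P = cls n (pull π A.P)

/-- a statement for all the contracted pairs -/
def ForG (P : ∀ (n : ℕ) (κ ι : Type) [Fintype κ] (A : Pr n κ ι), (κ → ℤ) → ℕ → Bd A.Z.X →
    Bd A.Z.X → Bd A.Z.X → Bd A.Z.X → ℕ → Prop) : Prop :=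
  ∀ (n : ℕ) (κ ι : Type) [Fintype κ] (A : Pr n κ ι) (m : κ → ℤ) (N : ℕ) (L M P₀ P₁ : Bd A.Z.X)
    (e : ℕ), Cg A m N L M P₀ P₁ e → P n κ ι A m N L M P₀ P₁ e

/-- ROW RIGG -/
def RIGG : Prop := ForG fun _ _ _ _ A m _ L _ _ P₁ _ => Rig A m P₁ L

/-- ROW SMG -/
def SMG : Prop := ForG fun n _ _ _ A m _ L _ _ P₁ _ => Rig A m P₁ L → ∀ (x y : ℕ) (B : Bd A.Z.X),
  0 < x → IsLB n B → cls n B = x • cls n P₁ + y • cls n L → Semiample n B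

/-- ROW EXG -/
def EXG : Prop := ForG fun n κ _ _ A m _ L _ _ P₁ _ => 2 ≤ n → Rig A m P₁ L →
  ∀ (O : κ → Bd A.Z.X) (σ : ∀ l, (O l).ι → A.Z.X → ℂ) (Λ B : Bd A.Z.X) (x y : ℕ),
  (∀ l, IsDiv n (A.G l) (O l) (σ l)) → 0 < x → IsLB n Λ → Bpf n Λ → IsLB n B →
  cls n B = y • cls n L → cls n Λ = x • cls n P₁ + cls n B →
  Exc n Λ B (lin O fun l => ((-m l).toNat : ℤ)) (mon σ fun l => (-m l).toNat)

/-- **RDG**: the birational data -/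
def RDG : Prop := ForG fun n _ _ _ A _ _ L _ _ _ _ => 2 ≤ n → ∃ (Q : Rd A.Z) (D : Bd A.Z.X)
  (t : D.ι → A.Z.X → ℂ) (q y : ℕ), Q.Ok ∧ SubPair n Q.E Q.s D t q (A.P.pow y) ∧ 0 < y ∧
    Q.L = L.pow y

end Vale.Agent.P270R
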