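import Vale.Agent.P285M.Gb.Ctn
import Vale.Agent.P270R.Cg59

/-!
# P270R: the contraction of the negative components of a polarised pair
-/

open Set Filter Function
open Vale.Agent.P272.K Vale.Agent.P285.H281.FD Vale.Agent.P281Z Vale.Agent.P280Z
open Vale.Agent.P277Z.Slc (IsDiv Snc lin)
open Vale.Agent.P277.HD (pull)
open Vale.Agent.P285N (Pr)
open Vale.Agent.P285N.Tp (Nf LR)
open Vale.Agent.P285W.Bs (Cp)
open Vale.Agent.P285U (Big)
open Vale.Agent.P285S.Mm.Ps.Nvso (ef_mon cls_mon)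
open Vale.Agent.P285M Vale.Agent.P285M.Gb

noncomputable section

namespace Vale.Agent.P270R

theorem ctg_of (fg : FG2) (nz : NZF) (mv : MV2) (zd : ZD) (bg : BG1) (eq : EQF) (rg : RG0)
    (ex : EXN) (va : VAN) (mono : Lt.MONO) (ltc : Lt.LTC) : CTG := by
  intro n κ ι _ A m N L M hA
  have ok := hA.ok
  have := ok.conn
  have cp : Cp A.Z := ⟨ok.conn, ok.prj⟩
  have nP := hA.nef
  have lP := hA.lb
  have lM := hA.lbM
  have N0 := ok.pos
  obtain ⟨H₀, C, lH₀, pH₀, hC⟩ := hA.bp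
  obtain ⟨O, σ, hO⟩ := (Hyp.of_snc ok.snc).exists_div
  have lO := fun l => (hO l).lb
  have l0 := lb_lin lO fun l => ((-m l).toNat : ℤ)
  have l1 := lb_mul ok.lb l0
  have c1 := (cls_mul ok.lb l0).trans (congrArg _ (cls_mon hO fun l => (-m l).toNat))
  have c2 : cls n (A.P.mul (lin O fun l => ((-m l).toNat : ℤ))) =
      N • cls n (Bd.can n A.Z.X) + ∑ l, (m l + (-m l).toNat) • cls n (O l) := by
    rw [c1, P285N.Xc.cls_eq n _ _ m N A O σ ok hO, add_assoc, ← Finset.sum_add_distrib]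
    simp only [add_smul, natCast_zsmul]
  obtain ⟨Ω, ok'⟩ := P285S.Mm.mkpr n _ A.Z A.G O σ _ (fun l => m l + (-m l).toNat) N ok.conn
    ok.prj ok.snc hO l1 ok.pos ok.even (fun l => by have := ok.le l; omega) c2
  obtain ⟨α, hα⟩ : ∃ α, α = 2 * C + 1 := ⟨_, rfl⟩
  obtain ⟨U, hU⟩ : ∃ U, U = n * (α * N) + 1 := ⟨_, rfl⟩
  have α0 : 0 < α := by omega
  obtain ⟨H, lH, pH, cH⟩ : ∃ H, IsLB n H ∧ Pos n H ∧ cls n H = α • cls n M + cls n H₀ :=
    ⟨_, lb_mul (lb_pow lM α) lH₀, hA.nfM H₀ lH₀ pH₀ α, by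
      rw [cls_mul (lb_pow lM α) lH₀, cls_pow lM]⟩
  have lD := lb_mul (lb_mul (lb_pow l1 α) lH) (lb_pow lP U)
  have cD := (cls_mul (lb_mul (lb_pow l1 α) lH) (lb_pow lP U)).trans (congrArg₂ (· + ·)
    ((cls_mul (lb_pow l1 α) lH).trans (congrArg (· + _) (cls_pow l1 α))) (cls_pow lP U))
  obtain ⟨T, a, e, hT, e0, ea, cT, cE⟩ := fg n (α * N) U A.Z κ A.G O σ
    (fun l => α * (m l).toNat) H L _ cp ok.snc hO (Nat.mul_pos α0 N0)
    (fun l => Nat.mul_le_mul_left _ (by have := ok.le l; omega)) lH pH lP nP (by omega) lD (by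
      rw [cD, c2, smul_add, Finset.smul_sum, mul_smul]
      refine congrArg (fun z => _ + z + _ + _) (Finset.sum_congr rfl fun l _ => ?_)
      rw [mul_smul, ← natCast_zsmul _ (m l).toNat]
      exact congrArg (fun z : ℤ => α • z • cls n (O l)) (by omega))
  have a0 : 0 < a := e0.trans_le ea
  have c0 : cls n T.E₀ = a • cls n H₀ + (a * (α + U)) • cls n L +
      ∑ l, (a * α * (-m l).toNat) • cls n (O l) := by
    rw [cT, cD, c1, cH, hA.cl]
    simp only [mul_smul, ← Finset.smul_sum, smul_add, add_smul]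
    abel
  have lHa := lb_pow lH₀ a
  have pHa : Pos n (H₀.pow a) := pH₀.pow a0
  obtain ⟨i, hi⟩ : ∃ i, a * (α + U) = i + e :=
    ⟨_, (Nat.sub_add_cancel (ea.trans (Nat.le_mul_of_pos_right _ (by omega)))).symm⟩
  have b0 : Big A.Z T.E₀ := big_of hO lP nP lHa pHa (by rw [cls_pow lH₀]; exact c0)
  have b1 : Big A.Z T.E₁ := big_of hO lP nP lHa pHa (i := i)
    (k := fun l => a * α * (-m l).toNat) (by
      rw [cls_pow lH₀, eq_sub_of_add_eq cE.symm, c0, hi, add_smul]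
      abel)
  obtain ⟨n0, n1⟩ := nz n _ T hT b0 b1
  obtain ⟨R, hR⟩ := mv n _ T H _ hT lH pH (snc_thin_off ok.snc) n0 n1
  have hπ := hR.md.hol
  have ho : ∀ y ∈ off R.G, R.π y ∉ R.S ∧ R.π y ∈ off A.G := fun y hy =>
    ⟨(hR.off y hy).1, not_not.1 (hR.off y hy).2⟩
  obtain ⟨m', Ω', k1, kb, kn⟩ := P285S.Tp.blow ok hR.md hR.cp.prj hR.snc hR.conn ho
  obtain ⟨m₁, Ω₁, j1, jb, jn⟩ := P285S.Tp.blow ok' hR.md hR.cp.prj hR.snc hR.conn ho
  have zR := zd n _ T H _ R hT lH pH hR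
  have bR := bg n _ T H _ R hT lH pH hR zR b1
  have lL := hπ.lb lP
  have nL := P285S.Tp.nf_comp hπ ok.prj lP nP
  have e1 : cls n ((pull R.π A.P).pow 1) = cls n (pull R.π A.P) := by
    rw [cls_pow (hπ.lb ok.lb), one_smul]
  have q1 : cls n ((pull R.π (A.P.mul (lin O fun l => ((-m l).toNat : ℤ)))).pow 1) = _ :=
    P285N.Xc.cls_eq n _ _ m₁ N _ R.O R.σ j1 hR.div
  rw [cls_pow (hπ.lb l1), one_smul, cls_pull hπ l1] at q1
  have q2 : cls n (pull R.π T.E₀) = cls n (pull R.π T.E₁) + e • cls n (pull R.π L) := by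
    rw [cls_pull hπ hT.lb₀, cls_pull hπ hT.lb₁, cls_pull hπ lP, cE, map_add, map_nsmul]
  have α1 : (0 : ℤ) < α := Nat.cast_pos.2 α0
  have eF := eq mono ltc n _ T H _ R hT lH pH hR _ a (α * N) e U (fun l => α * m₁ l) zR bR lL nL
    a0 (Nat.mul_pos α0 N0) (fun l => by
      rw [Nat.cast_mul]
      refine mul_lt_mul_of_pos_left ((j1.le l).lt_of_ne fun c => ?_) α1
      obtain ⟨y, hy⟩ := (hR.conn l).nonempty
      obtain ⟨j, c1, -⟩ := jb l c y hy
      have c3 : m j + (-m j).toNat = N := c1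
      have := hA.klt j
      omega)
    (fun l hl y hy => (jn l (neg_of_mul_neg_right hl α1.le) y hy).resolve_right
      fun ⟨k, c, _⟩ => by omega) (by omega) (by
      rw [cls_pull hπ hT.lb₀, cT, cD, map_nsmul, map_add, map_add, map_nsmul, map_nsmul, q1,
        cls_pull hπ lH, cls_pull hπ lP, smul_add α, Finset.smul_sum, mul_smul]
      simp only [mul_smul, natCast_zsmul]) q2
  refine ⟨R.p, (LR.mk R.W R.π R.G m' N 1 Ω' : LR A.Z A.P _).A, m', R.π, R.S, R.P₀, R.P₁, e, hR.md,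
    ⟨⟨k1, fun l => (k1.le l).lt_of_ne fun c => ?_, lL, nL, hπ.lb lM,
    P285S.Tp.nf_comp hπ ok.prj lM hA.nfM, ?_⟩,
    hR.conn, hR.lb₀, hR.lb₁, hR.fr₀, hR.fr₁, bR, e0, ?_, ?_⟩, e1⟩
  · obtain ⟨y, hy⟩ := (hR.conn l).nonempty
    obtain ⟨j, c1, -⟩ := kb l c y hy
    exact (hA.klt j).ne c1
  · refine Eq.trans ?_ (congrArg (· + _) e1.symm)
    rw [cls_pull hπ lP, cls_pull hπ ok.lb, cls_pull hπ lM, hA.cl, map_add]
  · rw [hR.cl₀, hR.cl₁, eF, add_right_comm] at q2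
    exact add_right_cancel q2
  · refine rg n _ T H _ R hT lH pH hR m' zR eF fun l hl =>
      ex n _ T H _ R hT lH pH hR {z | ∃ k, m k < 0 ∧ z ∈ A.G k} l (fun z ⟨k, c1, c2⟩ b => ?_)
        (kn l hl)
    refine va n κ ι A m N O σ H₀ L T.E₀ C a _ (a * α) _ ok hO lH₀ lP hT.lb₀ hC ?_ c0 (hT.s₀ b)
      k c1 z c2
    rw [hα]
    nlinarith

end Vale.Agent.P270R
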