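import Vale.Agent.P270U.Fibd
import Vale.Agent.P270U.Fke

/-!
# P270R: numerically effective polarised pairs with bounded poles are effective
-/

open Vale.Agent.P272.K Vale.Agent.P285.H281.FD Vale.Agent.P281Z
open Vale.Agent.P285N Vale.Agent.P285N.Tp
open Vale.Agent.P270H (Gf)

namespace Vale.Agent.P270R

theorem eff56 {d : ℕ} {κ ι : Type} [Fintype κ] {A : Pr d κ ι} {m : κ → ℤ} {N : ℕ}
    {L M : Bd A.Z.X} (g : Gf A m N L M) (h : NumEff d A.P) : Eff d A.P := by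
  obtain ⟨a, ha, F, f1, f2, s, s1, s2⟩ := h
  obtain ⟨j, hj, u, u1, b, x, k1, k2, k3⟩ := dp d _ _ m N A F a s g.ok f1 f2 ha s1 s2
  obtain ⟨H, C, lH, pH, fp⟩ := g.bp
  have hc : HC A m := P270U.FibdH.hc g.ok.lb g.ok.snc ⟨⟨lH, g.lb, fun i j B lB e => by
    have l2 := lb_mul (lb_pow g.lb i) lH
    refine Xc.piso d _ _ _ (lb_mul (lb_pow g.lbM j) l2) lB ?_ (g.nfM _ l2 (g.nef H lH pH i) j)
    rw [e, cls_mul (lb_pow g.lbM _) l2, cls_mul (lb_pow g.lb _) lH, cls_pow g.lbM, cls_pow g.lb,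
      ← sub_eq_iff_eq_add'.2 g.cl]
    abel⟩, C, fp⟩
  obtain ⟨v, v1, v2⟩ := (hc j u u1).isSec g.ok.snc (lb_pow g.ok.lb j) fun _ => one_pos
  exact ⟨j, hj, v, v1, b, x, k1, v2 b x k1 k2 ▸ k3⟩

end Vale.Agent.P270R
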