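import Vale.Agent.P270R.Top98
import Vale.Agent.P270R.Gae43
import Vale.Agent.P270Q.Efx97

/-!
# P270R: fibred and irregular varieties
-/

open Vale.Agent.P272.K Vale.Agent.P285.H281.FD Vale.Agent.P281Z Vale.Agent.P280Z
open Vale.Agent.P285N.Tp (Rd Wf)
open Vale.Agent.P285N.St (SubPair Psef)
open Vale.Agent.P285S.St (HasSec Kappa back Covered Fibred Irregular)
open Vale.Agent.P285L.St (SetupC NefC NumSemiampleX)
open Vale.Agent.P285L.Cn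
open Vale.Agent.P285.H716.AB (NumDim)

namespace Vale.Agent.P270R

variable {n : ℕ} {V : Mf n} {D : Bd V.X} {t : D.ι → V.X → ℂ} {q : ℕ} {w : Wf V}

theorem alqf (hc : ConnectedSpace V.X) (hP : V.Prj) (hw : IsKahler w)
    {X : P277.CSp} {C₀ M₀ : Bd X.pt} {μ : V.X → X.pt} {E : Bd V.X} {s : E.ι → V.X → ℂ}
    (h0 : SetupC n X μ E s) (lM : P277.IsLBx X M₀) (lD : P277.IsLBx X (C₀.mul M₀))
    (nM : NefC X M₀) (nD : NefC X (C₀.mul M₀)) (h : SubPair n E s D t q (back μ C₀))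
    (hC : Psef n (back μ C₀))
    (hs : (n ≤ 5 ∧ (HasSec n (back μ C₀) ∨ Fibred n V.X ∨ Irregular n V.X ∨
        P277.IsLBx X C₀ ∧ NefC X C₀)) ∨
      ((HasSec n (back μ C₀) ∨ Fibred n V.X) ∧ ∃ d, n ≤ d + 5 ∧ Covered n d (back μ (C₀.mul M₀))) ∨
      n ≤ 4 ∨ (∃ r ≤ 1, NumDim w (back μ (C₀.mul M₀)) r) ∨
      ∃ d r, n ≤ d + r + 4 ∧ (d = 0 ∨ Covered n d (back μ (C₀.mul M₀))) ∧
        (r = 0 ∨ (HasSec n (back μ C₀) ∨ Fibred n V.X ∨ n ≤ 5) ∧ ∃ i j F, IsLB n F ∧ Flat n F ∧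
          Kappa n r ((((back μ C₀).pow i).mul ((back μ M₀).pow j)).mul F))) :
    NumSemiampleX n X μ (C₀.mul M₀) := by
  have e : Fibred n V.X ∨ (n ≤ 5 ∧ Irregular n V.X) → HasSec n (back μ C₀) := fun k => by
    obtain ⟨A, N, S, pe⟩ := h0.prj
    obtain ⟨Z, res, ex⟩ := h0.res
    have k1 := P285L.K24.kly hc hP res.cont res.hol lM nM
    have b := birD P270V.A37.bpfg ⟨hc, hP⟩ h0.two pe lM lD h0.div res ex h k1
      (P285L.K24.kly hc hP res.cont res.hol lD nD)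
    exact P270Q.efx (Q := ⟨_, _, _, _, E, s⟩) ⟨hc, hP, b⟩ h hC
      (P285L.T24.lb res.cont res.hol lM) k1 (P285N.Tp.iso_refl b.res.lbL) k
  refine alqw (G43.gae5 (ga5 5 le_rfl)) hc hP hw h0 lM lD nM nD h hC ?_
  rcases hs with ⟨a, k | k | k | k⟩ | ⟨k, a⟩ | k | k | ⟨d, r, a, b, k⟩
  · exact .inl ⟨a, .inl k⟩
  · exact .inl ⟨a, .inl (e (.inl k))⟩
  · exact .inl ⟨a, .inl (e (.inr ⟨a, k⟩))⟩
  · exact .inl ⟨a, .inr k⟩
  · exact .inr (.inl ⟨k.elim id fun c => e (.inl c), a⟩)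
  · exact .inr (.inr (.inl k))
  · exact .inr (.inr (.inr (.inl k)))
  · exact .inr (.inr (.inr (.inr ⟨d, r, a, b, k.imp_right (.imp_left fun c =>
      c.elim .inl fun c => c.imp_left fun c => e (.inl c))⟩)))

end Vale.Agent.P270R
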