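import Vale.Agent.P270H.Fibk
import Vale.Agent.P285N.All1
import Vale.Agent.P285N.Tp.Nefp

/-!
# P270R: non vanishing on the fibres of the base, from a section
-/

open Set Filter Function
open Vale.Agent.P272.K Vale.Agent.P285.H281.FD Vale.Agent.P281Z Vale.Agent.P285N
open Vale.Agent.P277Z.Slc (IsDiv Snc lin isLB_can)
open Vale.Agent.P277.HD (pull)
open Vale.Agent.P285S Vale.Agent.P285S.Mm.Ps.Nvso
open Vale.Agent.P285N.Tp (Eff NumEff)
open Vale.Agent.P280Z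
open Vale.Agent.P285T.Cb (can_imm cls_cst Wp)

namespace Vale.Agent.P270R

/-- the boundary on the fibres -/
theorem F66.core {w : ℕ} {W : Mf w} {B : Wp W} (hB : P270H.Wk B) {O : Set W.X} (hO : IsOpen O)
    (hO' : O.Nonempty) (h : ∀ (d : ℕ) (C : Mf d) (k : C.X → W.X) (E : Bd C.X) G Ω
      (m : Fin B.k → ℤ), w = B.r + d → HolM d w k → (∃ z, k z ∈ O) → IsLB d E → Ef C (cls d E) →
      (∀ l, 0 ≤ m l ∧ m l < B.x) →
      Pr.Ok ⟨C, G, ((pull k B.P).mul E).U, ((pull k B.P).mul E).g, Ω⟩ m B.x →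
      Eff d ((pull k B.P).mul E)) : B.Fk := by
  have := hB.cp.conn
  have hγ := hB.hγ
  have hS := hB.snc
  have hG := Hyp.of_snc hS
  obtain ⟨Q, q1, q2⟩ := genS w B.r W B.Z B.γ _ B.D hγ hS
  obtain ⟨x₀, k1⟩ := (q1.pre_surj hγ hB.surj).dense.nonempty
  obtain ⟨d, hd⟩ := Nat.exists_eq_add_of_le ((q2 _ k1).sbm hγ hS rfl).le
  refine ⟨d, fun hN => ?_⟩
  obtain ⟨x, hy, hx⟩ := ((hN.union q1.neg).pre fun S k => k.pre_surj hγ hB.surj).dense
    |>.exists_mem_open hO hO'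
  have hr := q2 _ fun c => hy (.inr c)
  obtain ⟨F, i, hi, hs⟩ := hr.fib hd hγ hS
  obtain ⟨u, rfl⟩ := hi.ex (rfl : x ∈ B.γ ⁻¹' {B.γ x})
  obtain ⟨C, j, cC, hj⟩ := comp_emb F u
  have sj : ∀ z, Sbm d d j z := fun z => imm_iff_sbm.1 (hj.imm z)
  have hk : HolM d w fun z => i (j z) := hi.hol.comp hj.hol
  have sC := snc_pull hj.hol sj hs
  have pC : C.Prj := hB.cp.prj.elim fun H h => ⟨_, hk.lb h.1, Lf.pos_pull hk
    (fun z => Imm.comp (hi.hol.at _) (hj.hol.at z) (hi.imm _) (hj.imm z)) h.2⟩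
  have lO := fun l => (B.Y.div l).lb
  have hO : ∀ l, IsDiv d (j ⁻¹' (i ⁻¹' B.D l)) (pull (fun z => i (j z)) (B.Y.O l))
      fun a z => B.Y.σ l a (i (j z)) := fun l => ⟨hk.lb (lO l), hk.sec (B.Y.div l).sec,
    fun a z ha => (sj z).leq (hj.hol.at z) (hr.leq1 hγ hS hi ((B.Y.div l).leq a _ ha))⟩
  have lP := hk.lb hB.lb
  have l0 := lb_lin (fun l => (hO l).lb) fun l => ((-B.μ l).toNat : ℤ)
  have l1 := lb_mul lP l0
  have c0 := cls_mon hO fun l => (-B.μ l).toNat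
  have c1 := (cls_mul lP l0).trans (congrArg _ c0)
  have cK : cls d (Bd.can d C.X) = hk.pic (cls w (Bd.can w W.X)) := by
    rw [can_imm hj.hol hj.imm, Ri.On.cls_can hr hγ hS hi, ← cls_pull hi.hol isLB_can,
      ← cls_pull hj.hol (hi.hol.lb isLB_can), ← cls_pull hk isLB_can]
    rfl
  have c2 := c1.trans (show _ = B.x • cls d (Bd.can d C.X) +
      ∑ l, max (B.μ l) 0 • cls d (pull (fun z => i (j z)) (B.Y.O l)) by
    rw [cls_pull hk hB.lb, hB.cl, map_add, map_add, map_nsmul, map_nsmul, map_sum, ← cK,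
      ← cls_pull hk (hγ.lb hB.zk.lbM), show cls d (pull _ (pull B.γ B.M)) = 0 from
        cls_cst (hγ.comp hk) hB.zk.lbM fun z => hi.fib (j z), smul_zero, add_zero, add_assoc,
      ← Finset.sum_add_distrib]
    refine congrArg _ (Finset.sum_congr rfl fun l _ => ?_)
    rw [map_zsmul, ← cls_pull hk (lO l), ← natCast_zsmul, ← add_smul]
    exact congrArg (· • _) (by omega))
  have lt : ∀ l, max (B.μ l) 0 < B.x := fun l => max_lt (hB.klt l) (by exact_mod_cast hB.xp)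
  obtain ⟨Ω, ok⟩ := Mm.mkpr d _ C _ _ _ _ (fun l => max (B.μ l) 0) B.x cC pC sC hO l1 hB.xp hB.even
    (fun l => (lt l).le) c2
  obtain ⟨a, ha, s, s1, b, z, s2, s3⟩ := h d C _ _ _ Ω _ hd hk
    ((hj.ex mem_connectedComponent).imp fun z (e : j z = u) => e.symm ▸ hx) l0
    (c0 ▸ ef_mon hO _) (fun l => ⟨le_max_right _ _, lt l⟩) ok
  have l2 := lb_pow l1 a
  obtain ⟨v, v1, v2⟩ := ((Tp.dense_nz' (V := C) l2 s1 ⟨z, (nz_iff l2
    (fun b b' => s1.change b b' z) s2).2 s3⟩).inter_of_isOpen_right (snc_dense_off sC)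
      (snc_open_off sC)).nonempty
  have lK := lb_pow (isLB_can (n := d) (W := F.X)) (a * B.x)
  have lL := lb_lin lO fun l => -(a * max (B.μ l) 0 : ℤ)
  refine hy (.inl ⟨F, i, hi, a * B.x, Nat.mul_pos ha hB.xp, Ri.ext0 d w 0 C F W i j _ _ _ _ _ hj
    (Sy.of_cls hG hk.cont (hj.hol.lb lK) (lb_mul l2 (hk.lb lL))
      (((sy_zero l2).2 ⟨s, secP_of_sec (c := fun _ => 0) hk.cont s1 fun _ => le_rfl, v, v2,
        v1⟩).div hk l2 B.Y.div _) ?_ fun l => le_of_eq ?_)⟩)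
  · rw [cls_mul l2 (hk.lb lL), cls_pow l1, c2, cls_pull hj.hol lK, cls_pow isLB_can, map_nsmul,
      ← can_imm hj.hol hj.imm, cls_pull hk lL, cls_lin lO, map_sum, smul_add, smul_smul, add_assoc,
      Finset.smul_sum, ← Finset.sum_add_distrib, Finset.sum_eq_zero, add_zero]
    intro l _
    rw [map_zsmul, ← cls_pull hk (lO l), neg_smul, mul_smul, natCast_zsmul, add_neg_cancel]
  · have : (B.x : ℝ) ≠ 0 := by exact_mod_cast hB.xp.ne'
    push_cast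
    field_simp
    ring

theorem fke66 {w : ℕ} {W : Mf w} {B : Wp W} (hB : P270H.Wk B) (h : NumEff w B.P) : B.Fk := by
  obtain ⟨a, ha, F, f1, f2, s, s1, b, x, s2, s3⟩ := h
  have l1 := lb_mul (lb_pow hB.lb a) f1
  refine F66.core hB (O := {x | NZ _ s x}) (isOpen_iff_mem_nhds.2 fun _ => Ld.Fn.nz_near l1 s1)
    ⟨x, (nz_iff l1 (fun b b' => s1.change b b' x) s2).2 s3⟩
    fun d C k E G Ω m hd hk ⟨z, hz⟩ hE he hm ok => ?_
  have := ok.conn
  have l2 := lb_mul (lb_pow ok.lb a) (hk.lb f1)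
  obtain ⟨t, y, t1, t2⟩ := ef_cls l2 (by
    have e := Tp.ef_add (⟨_, _, hk.lb l1, rfl, hk.sec s1, z, hz⟩ : Ef C _) (Tp.ef_smul he a)
    rwa [cls_pull hk l1, cls_mul (lb_pow hB.lb a) f1, cls_pow hB.lb, map_add, map_nsmul,
      ← cls_pull hk hB.lb, ← cls_pull hk f1, add_right_comm, ← smul_add,
      ← cls_mul (hk.lb hB.lb) hE, ← cls_pow ok.lb, ← cls_mul (lb_pow ok.lb a) (hk.lb f1)] at e)
  obtain ⟨c, hc⟩ := l2.cover y
  obtain ⟨j, hj, u, ⟨r, u1⟩, b, x, k1, k2, k3⟩ := P285N.Tp.dp d _ _ m B.x _ _ a t ok (hk.lb f1)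
    ((P285N.Tp.nefp d w W C k F hk f1).2.1 f2) ha t1 ⟨c, y, hc, t2 c hc⟩
  obtain ⟨v, v1, v2⟩ := u1.isSec ok.snc (lb_pow ok.lb j) fun l => by
    rw [if_neg (not_lt.2 (hm l).1)]
    exact one_pos
  exact ⟨j, hj, v, v1, b, x, k1, v2 b x k1 k2 ▸ k3⟩

end Vale.Agent.P270R
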