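import Vale.Agent.P285M.Gb.Smi59
import Vale.Agent.P285M.Gb.Exb31
import Vale.Agent.P285M.Gb.Rdc36
import Vale.Agent.P270G.Rgn
import Vale.Agent.P270R.Cg59

/-!
# P270R: the birational data of a contracted polarised pair
-/

open scoped Topology
open Set Filter Function
open Vale.Agent.P272.K Vale.Agent.P285.H281.FD Vale.Agent.P281Z Vale.Agent.P280Z
open Vale.Agent.P285M Vale.Agent.P285M.Gb

noncomputable section

namespace Vale.Agent.P270R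

theorem rigg59 : RIGG := by
  intro n κ ι _ A m N L M₀ P₀ P₁ e h k i M s hM cM ⟨j, hs⟩
  refine ⟨hs.hol, hs.chg, fun a x _ ha => ?_⟩
  obtain ⟨u, u1, u2⟩ := h.fr₁ x
  obtain ⟨b, hb⟩ := h.lb₁.cover x
  have k1 := h.rig i (e * k) _ _ _ (lb_mul (lb_pow hM e) (lb_pow h.lb₁ i)) (by
      rw [cls_mul (lb_pow hM e) (lb_pow h.lb₁ i), cls_pow hM, cls_pow h.lb₁, cM, h.cl₀]
      module)
    (fun l hl => by
      by_contra c
      simp [c] at hl)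
    ((SecP.pow continuous_id hs e).mul continuous_id ((secP_of_sec (c := fun _ => 0) continuous_id
      u1 fun _ => le_rfl).pow continuous_id i))
  have k2 := sec_hol u1 hb
  refine BdP.of_pow h.ep (BdP.mono continuousAt_id
    (((k1.bdP (a := (a, b)) trivial ⟨ha, hb⟩).cmul
      ((k2.pow i).inv (pow_ne_zero i (u2 b hb))).cont).congr ?_) fun l _ => by simp)
  filter_upwards [k2.ne_near (u2 b hb)] with y k3 _
  rw [mul_comm (s a y ^ e), inv_mul_cancel_left₀ (pow_ne_zero i k3)]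

section

open Vale.Agent.P285N.Xc (piso topa)
open Vale.Agent.P270H.Amb89 (ef_add ef_smul bpf_pow)

theorem smg59 (bp : P285U.BPFG) : SMG := by
  intro n κ ι _ A m N L M₀ P₀ P₁ e hC hR x y M hx lM eM
  have lP := hC.lb
  have l1 := hC.lb₁
  have n1 := Lt.nf_bpf l1 hC.fr₁
  rcases y with _ | y
  · refine ⟨1, le_rfl, Bpf.iso (lb_pow lM 1) (lb_pow l1 x) ((cls_eq (lb_pow lM 1)
      (lb_pow l1 x)).1 ?_) (bpf_pow hC.fr₁ x)⟩
    rw [cls_pow lM, cls_pow l1, eM, zero_smul, add_zero, one_smul]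
  obtain ⟨a, H, ha, lH, pH, D, t, d1, d2, d3, z, d4⟩ := hC.big
  have := hC.ok.conn
  have l2 := lb_mul (lb_pow l1 x) (lb_pow lP y)
  have e2 : cls n ((P₁.pow x).mul (L.pow y)) = x • cls n P₁ + y • cls n L := by
    rw [cls_mul (lb_pow l1 x) (lb_pow lP y), cls_pow l1, cls_pow lP]
  have l3 := lb_mul l2 hC.lbM
  have e3 := cls_mul l2 hC.lbM
  refine bp n κ ι A m N M _ ⟨hC.ok, hC.klt, lM, Smi59.nf_cl l1 lP n1 hC.nef _ _ lM eM, l3,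
    Smi59.nf_cl l2 hC.lbM (Smi59.nf_cl l1 lP n1 hC.nef _ _ l2 e2) hC.nfM 1 1 l3
      (by rw [e3, one_smul, one_smul]), by
      rw [eM, e3, e2, succ_nsmul, ← sub_eq_iff_eq_add'.2 hC.cl]; abel⟩
    ⟨H, (topa n κ ι m N A H M _ D t hC.ok lH lM (lb_pow l1 a) d1 (by rw [d2, cls_pow l1]) d3
      ⟨z, d4⟩ fun k i M' s m1 m2 => hR (k * a + i * x) (i * (y + 1)) M' s m1 ?_).imp
      fun C h => ⟨lH, pH, h⟩⟩
    ⟨a, _, ha, lb_mul (lb_pow lP (a * (y + 1))) lH, hC.nef H lH pH _, ?_⟩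
  · rw [m2, cls_pow l1, eM]
    module
  · obtain ⟨x, rfl⟩ := Nat.exists_eq_add_one_of_ne_zero hx.ne'
    obtain ⟨s, s1, s2⟩ := hC.fr₁ z
    have k := ef_add (⟨D, t, d1, d2, d3, z, d4⟩ : P285S.Ef A.Z _)
      (ef_smul (⟨P₁, s, l1, rfl, s1, z, s2⟩ : P285S.Ef A.Z _) (a * x))
    refine Eq.mp (congrArg (P285S.Ef A.Z) ?_) k
    rw [cls_mul (lb_pow lP _) lH, cls_pow lP, eM]
    module

end

section

open Vale.Agent.P277Z.Slc (IsDiv lin)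
open Vale.Agent.P285W Vale.Agent.P285W.J
open Vale.Agent.P285W.Bs (Cp)
open Vale.Agent.P280Z.Co (ct)

theorem exg59 : EXG := by
  intro n κ ι _ A m N L₀ M₀ P₀ P₁ e h hn hR O σ Λ L x y hO hx lΛ bΛ lL cL cΛ
  obtain ⟨d, rfl⟩ : ∃ d, n = d + 2 := ⟨n - 2, by omega⟩
  have hT := Co.ct_ok
  have := h.ok.conn
  have cZ : Cp A.Z := ⟨h.ok.conn, h.ok.prj⟩
  obtain ⟨a, H, a0, lH, pH, hE⟩ := h.big
  have l1 := lb_pow h.lb₁ a
  have nP := J.nf_of hT h.ok.prj h.lb h.nef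
  have n1 := bf_nf hT ⟨P₁, h.lb₁, h.fr₁, rfl⟩
  have nΛ := bf_nf hT ⟨Λ, lΛ, bΛ, rfl⟩
  have kH := hT.c1.pos _ _ lH pH
  have x1 : (1 : ℝ) ≤ x := Nat.one_le_cast.2 hx
  have a1 : (1 : ℝ) ≤ a := Nat.one_le_cast.2 a0
  have y0 : (0 : ℝ) ≤ y := y.cast_nonneg
  have eL : ct.c1 A.Z L = (y : ℝ) • ct.c1 A.Z L₀ := by
    rw [← hT.c1.pow _ _ _ h.lb]
    exact Ld.Ext.c1_cls Ld.iso hT.c1 lL (lb_pow h.lb y) (by rw [cls_pow h.lb, cL])
  have eΛ : ct.c1 A.Z Λ = (x : ℝ) • ct.c1 A.Z P₁ + ct.c1 A.Z L := by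
    rw [← hT.c1.pow _ _ _ h.lb₁, ← hT.c1.mul _ _ _ (lb_pow h.lb₁ x) lL]
    exact Ld.Ext.c1_cls Ld.iso hT.c1 lΛ (lb_mul (lb_pow h.lb₁ x) lL)
      (by rw [cls_mul (lb_pow h.lb₁ x) lL, cls_pow h.lb₁, cΛ])
  have h0 : 0 < ct.int A.Z (ct.c1 A.Z Λ ^ (d + 2)) := by
    obtain ⟨D, t, lD, eD, ht, z, hz⟩ := hE
    obtain ⟨i, hi⟩ := lD.cover z
    have e1 : J.Ef ct A.Z ((a : ℝ) • ct.c1 A.Z P₁ - ct.c1 A.Z H) :=
      ⟨D, t, lD, ht, KodA.dense_nz lD ht hi (hz i hi), by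
        rw [eq_sub_iff_add_eq, ← hT.c1.mul _ _ _ lD lH, ← hT.c1.pow _ _ _ h.lb₁]
        exact Ld.Ext.c1_cls Ld.iso hT.c1 (lb_mul lD lH) l1
          (by rw [cls_mul lD lH, eD, sub_add_cancel, cls_pow h.lb₁])⟩
    have e2 : J.Nf ct A.Z ((1 : ℝ) • ct.c1 A.Z Λ - ct.c1 A.Z P₁) := by
      rw [show (1 : ℝ) • ct.c1 A.Z Λ - ct.c1 A.Z P₁ =
        (x - 1 : ℝ) • ct.c1 A.Z P₁ + (y : ℝ) • ct.c1 A.Z L₀ by rw [eΛ, eL]; module]
      exact nf_add hT (nf_smul hT (by linarith) n1) (nf_smul hT y0 nP)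
    refine (mn_int hT (nΛ.mn.pow _)).lt_of_ne' fun q => (kc_pos hT kH).ne' ?_
    simpa using domp hT (le_of_ef hT a.cast_nonneg e1) (kc_nf hT kH) n1 (d + 2) mn_one
      (domp hT (le_of_nf hT zero_le_one e2) n1 nΛ _ mn_one (by rw [mul_one, q]))
  have hc : J.Nf ct A.Z ((1 : ℝ) • ct.c1 A.Z Λ - ct.c1 A.Z L) := by
    rw [one_smul, eΛ, add_sub_cancel_right]
    exact nf_smul hT x.cast_nonneg n1
  have lO := fun l => (hO l).lb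
  have h3 : ct.int A.Z (ct.c1 A.Z (lin O fun l => ((-m l).toNat : ℤ)) *
      ct.c1 A.Z Λ ^ (d + 1)) = 0 := by
    rw [hT.c1.lin _ _ _ lO, Finset.sum_mul, map_sum]
    refine Finset.sum_eq_zero fun l _ => ?_
    rw [smul_mul_assoc, map_smul]
    by_cases hl : m l < 0
    swap
    · rw [show (-m l).toNat = 0 by omega]
      simp
    have k := P270G.RgnH.rign hT h.ok h.lb nP hO l1 (by
      rw [hT.c1.pow _ _ _ h.lb₁]
      exact nf_smul hT a.cast_nonneg n1) lH pH (by rwa [cls_pow h.lb₁])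
      (fun k i M s m1 m2 m3 => hR (k * a) i M s m1 (by rw [m2, cls_pow h.lb₁, mul_smul]) m3) hl
    rw [hT.c1.pow _ _ _ h.lb₁] at k
    have nv := nf_add hT (nf_smul hT (r := (x + y) * a - x) (by nlinarith) n1)
      (nf_smul hT (r := x) x.cast_nonneg nP)
    have k2 := Exb31.drop (fun y => ef_int hT (P285S.En.ef_div (T := ct) hO l) (b := y)) nΛ.mn
      nv.mn (nf_add hT nΛ nv).mn (d + 1) mn_one (by
        rw [show ct.c1 A.Z Λ + (((x + y) * a - x : ℝ) • ct.c1 A.Z P₁ + (x : ℝ) • ct.c1 A.Z L₀) =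
          (x + y : ℝ) • ((a : ℝ) • ct.c1 A.Z P₁ + ct.c1 A.Z L₀) by rw [eΛ, eL]; module,
          mul_one, smul_pow, mul_smul_comm, map_smul, k, smul_zero])
    rw [mul_one] at k2
    rw [k2, smul_zero]
  obtain ⟨lE, hs, nE⟩ := P285N.Tp.En.div_mon hO fun l => (-m l).toNat
  exact ⟨P285L.X49.exc1 hT cZ lΛ bΛ lL lE hs nE h0 hc h3,
    P285L.X49.exc hT P285N.Tp.flc cZ lΛ bΛ lL lE hs nE h0 hc h3⟩

end

open Vale.Agent.P277Z.Slc (lin)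
open Vale.Agent.P285N.Tp (mon sec_mon mon_ne)

theorem rdg59 (h1 : RIGG) (h2 : SMG) (h3 : IMF) (h4 : SGI) (h5 : SGT) (h6 : NFR) (h7 : EXG)
    (h8 : SUBP) : RDG := by
  intro n κ ι _ A m N L M P₀ P₁ e C hn
  have cp : P285W.Bs.Cp A.Z := ⟨C.ok.conn, C.ok.prj⟩
  have rg := h1 n κ ι A m N L M P₀ P₁ e C
  obtain ⟨O, σ, hO⟩ := (Hyp.of_snc C.ok.snc).exists_div
  obtain ⟨j, r₁, s₁, hj, f₁, i₁⟩ := (h3 n A.Z P₁ cp C.lb₁ C.fr₁).2 C.big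
  have l₀ := lb_pow C.lb₀ j
  have l₁ := lb_pow C.lb₁ j
  have lL := lb_pow C.lb (j * e)
  have lA := lb_mul l₀ l₁
  obtain ⟨r₀, s₀, f₀⟩ := (h3 n A.Z _ cp l₀ (Hr.Tp.bpf_pow C.fr₀ j)).1
  have c0 : cls n (P₀.pow j) = cls n (P₁.pow j) + cls n (L.pow (j * e)) := by
    rw [cls_pow C.lb₀, cls_pow C.lb₁, cls_pow C.lb, C.cl₀, smul_add, mul_smul]
  have c1 : cls n ((P₀.pow j).mul (P₁.pow j)) =
      (j + j) • cls n P₁ + cls n (L.pow (j * e)) := by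
    rw [cls_mul l₀ l₁, c0, cls_pow C.lb₁, add_smul, add_right_comm]
  obtain ⟨fr, im⟩ := h4 n A.Z _ _ _ _ s₀ s₁ l₀ l₁ f₀ f₁
  have ex := h7 n κ ι A m N L M P₀ P₁ e C hn rg O σ _ _ (j + j) (j * e) hO (by omega) lA (fun x => by
    obtain ⟨k, hk⟩ := lA.cover x
    obtain ⟨a, ha⟩ := fr.2 k x hk
    exact ⟨_, fr.1 a, (nz_iff lA (fun b b' => (fr.1 a).change b b' x) hk).2 ha⟩) lL
    (cls_pow C.lb _) c1
  obtain ⟨D, t, q, sp⟩ := h8 n κ ι A m N O σ (j * e) C.ok C.klt hO (mul_pos hj C.ep)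
  have lE := lb_lin (fun l => (hO l).lb) fun l => ((-m l).toNat : ℤ)
  refine ⟨⟨_, _, sg s₀ s₁, L.pow (j * e), _, mon σ fun l => (-m l).toNat⟩, D, t, q, j * e,
    ⟨cp.conn, cp.prj, ⟨lA, lL, lE, fr.1, fr.2, h6 n A.Z _ _ _ _ cp lA lL fr fun i =>
      h2 n κ ι A m N L M P₀ P₁ e C rg (j + j) (i * (j * e) + j * e) _ (by omega)
        (lb_mul (lb_pow lL i) lA) ?_, h5 n A.Z _ _ _ _ s₀ s₁ l₀ l₁ f₀ f₁ _ lL c0,
      sec_mon (fun l => (hO l).sec) _, ?_, ex.1⟩, im i₁, ex.2⟩, sp, mul_pos hj C.ep, rfl⟩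
  · rw [cls_mul (lb_pow lL i) lA, c1, cls_pow lL, cls_pow C.lb, add_smul (i * (j * e)),
      mul_smul i, add_left_comm]
  · have := cp.conn
    obtain ⟨x, hx⟩ := (snc_dense_off C.ok.snc).nonempty
    obtain ⟨c, hc⟩ := lE.cover x
    exact ⟨c, x, hc, mon_ne hO _ hc fun l _ => hx l⟩

end Vale.Agent.P270R
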