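import Vale.Agent.P270Q.All3
import Vale.Agent.P270R.Cbe66

/-!
# P270R: effective klt pairs of nef dimension at most five on normal varieties
-/

open Vale.Agent.P272.K Vale.Agent.P285.H281.FD Vale.Agent.P281Z Vale.Agent.P280Z
open Vale.Agent.P285N.Tp (Rd Wf rows o1g)
open Vale.Agent.P270G
open Vale.Agent.P285N.St (SubPair Psef Iso)
open Vale.Agent.P285S.St (HasSec back Covered)
open Vale.Agent.P285L.St (SetupC NefC NumSemiampleX)
open Vale.Agent.P285L.Cn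
open Vale.Agent.P270V (Cn)

namespace Vale.Agent.P270R

theorem ga5 (n : ℕ) (h : n ≤ 5) : GA n := by
  rcases h.lt_or_eq with c | rfl
  · exact ga4 n (by omega)
  · exact fun _ _ _ _ _ _ _ k => P270Q.ga_s le_rfl rows o1g P270Q.nor4 P270H.cbg P270U.tru kd3
      (gdf_of rgq fpf) P285S.Tp.As.sae5 nsd k

open P270H in
theorem cbe (gae : ∀ w ≤ 5, GAE w) : CBE :=
  cbe66 ga5 gae (st071 ds2) crp fk03 (fk1_of rf) P285T.Cb.one0 P285T.Cb.cbf
    (wpr53 (nzt61 rf) (hor61 rf) P285T.Cb.cle59 P285T.Cb.zar1b P285T.Cb.zar97) (fpd_of lam) psb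
    amb gdw (gup3_of fpu) end3

variable {n : ℕ} {V : Mf n} {D : Bd V.X} {t : D.ι → V.X → ℂ} {q : ℕ} {w : Wf V}

theorem alqw (gae : ∀ w ≤ 5, GAE w) (hc : ConnectedSpace V.X) (hP : V.Prj) (hw : IsKahler w)
    {X : P277.CSp} {C₀ M₀ : Bd X.pt} {μ : V.X → X.pt} {E : Bd V.X} {s : E.ι → V.X → ℂ}
    (h0 : SetupC n X μ E s) (lM : P277.IsLBx X M₀) (lD : P277.IsLBx X (C₀.mul M₀))
    (nM : NefC X M₀) (nD : NefC X (C₀.mul M₀)) (h : SubPair n E s D t q (back μ C₀))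
    (hC : Psef n (back μ C₀))
    (hs : (n ≤ 5 ∧ (HasSec n (back μ C₀) ∨ P277.IsLBx X C₀ ∧ NefC X C₀)) ∨
      (HasSec n (back μ C₀) ∧ ∃ d, n ≤ d + 5 ∧ Covered n d (back μ (C₀.mul M₀))) ∨
      Cn w (back μ C₀) (back μ M₀) (back μ (C₀.mul M₀))) :
    NumSemiampleX n X μ (C₀.mul M₀) := by
  rcases hs with k | ⟨e, d, hd, cv⟩ | k
  · exact P270Q.alqy P270Q.nor4 P270Q.nvl5 hc hP hw h0 lM lD nM nD h hC (.inl k)
  swap
  · exact P270Q.alqy P270Q.nor4 P270Q.nvl5 hc hP hw h0 lM lD nM nD h hC (.inr k)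
  obtain ⟨A, N, S, pe⟩ := h0.prj
  obtain ⟨Z, res, ex⟩ := h0.res
  have k1 := P285L.K24.kly hc hP res.cont res.hol lM nM
  have b := birD P270V.A37.bpfg ⟨hc, hP⟩ h0.two pe lM lD h0.div res ex h k1
    (P285L.K24.kly hc hP res.cont res.hol lD nD)
  exact P285L.F47.dsfc h0.normal res hP lD (cbe gae n d V ⟨_, _, _, _, E, s⟩ D t q _ _ ⟨hc, hP, b⟩
    h e (P285L.T24.lb res.cont res.hol lM) k1 (P285N.Tp.iso_refl b.res.lbL) hd
    (P285T.Cb.cov_gd hc b.res.lbL cv))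

end Vale.Agent.P270R
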